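import Mathlib

/-!
helper94, P237 (prism case, proof report of helper98): volumes of product sets in Euclidean
3-space, written in coordinates.
* `volume_slab`: `{x | (x 0, x 1) ∈ W ∧ x 2 ∈ J}` has volume `volume W * volume J`
  (arbitrary sets `W ⊆ ℝ × ℝ`, `J ⊆ ℝ`);
* `volume_prism`: the prism over `D` of height `h` has volume `h * volume D`;
* `volume_Z`, `volume_Z_of`: the set `Z` of Step 4 has volume `2 * volume D * volume W`.
-/

namespace Vale.Agent.Lib.P237.H94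

open MeasureTheory Set

/-- The coordinate chart `x ↦ (x 2, (x 0, x 1))` of Euclidean 3-space. -/
noncomputable def chart : EuclideanSpace ℝ (Fin 3) ≃ᵐ ℝ × (ℝ × ℝ) :=
  (MeasurableEquiv.toLp 2 (Fin 3 → ℝ)).symm.trans
    ((MeasurableEquiv.piFinSuccAbove (fun _ : Fin 3 => ℝ) 2).trans
      (MeasurableEquiv.prodCongr (MeasurableEquiv.refl ℝ) (MeasurableEquiv.finTwoArrow (α := ℝ))))

theorem chart_apply (x : EuclideanSpace ℝ (Fin 3)) : chart x = (x 2, (x 0, x 1)) := rfl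

theorem chart_measurePreserving : MeasurePreserving chart volume volume := by
  have h2 : MeasurePreserving (MeasurableEquiv.toLp 2 (Fin 3 → ℝ)).symm volume volume :=
    EuclideanSpace.volume_preserving_symm_measurableEquiv_toLp (Fin 3)
  have h3 := volume_preserving_piFinSuccAbove (fun _ : Fin 3 => ℝ) 2
  have h4 : MeasurePreserving (Prod.map id (MeasurableEquiv.finTwoArrow (α := ℝ)))
      (volume : Measure (ℝ × (Fin 2 → ℝ))) (volume : Measure (ℝ × (ℝ × ℝ))) :=
    (MeasurePreserving.id volume).prod (volume_preserving_finTwoArrow ℝ)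
  exact h4.comp (h3.comp h2)

/-- Volume of a product set of Euclidean 3-space, in coordinates. -/
theorem volume_slab (W : Set (ℝ × ℝ)) (J : Set ℝ) :
    volume {x : EuclideanSpace ℝ (Fin 3) | (x 0, x 1) ∈ W ∧ x 2 ∈ J} = volume W * volume J := by
  have hset : {x : EuclideanSpace ℝ (Fin 3) | (x 0, x 1) ∈ W ∧ x 2 ∈ J} = chart ⁻¹' (J ×ˢ W) := by
    ext x
    simp only [mem_ofPred_eq, mem_preimage, chart_apply, mem_prod]
    tauto
  rw [hset, chart_measurePreserving.measure_preimage_equiv, Measure.volume_eq_prod,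
    Measure.prod_prod, mul_comm]

/-- Volume of the prism over `D` of height `h`. -/
theorem volume_prism (D : Set (ℝ × ℝ)) (h : ℝ) :
    volume {y : EuclideanSpace ℝ (Fin 3) | (y 0, y 1) ∈ D ∧ 0 ≤ y 2 ∧ y 2 ≤ h}
      = ENNReal.ofReal h * volume D := by
  have := volume_slab D (Icc (0:ℝ) h)
  simp only [mem_Icc] at this
  rw [this, Real.volume_Icc, sub_zero, mul_comm]

/-- Volume of the set `Z` of Step 4, for any description `W` of its base. -/
theorem volume_Z_of (D W : Set (ℝ × ℝ)) (hD : volume D ≠ ⊤) (h : ℝ)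
    (hW : ∀ w : ℝ × ℝ, w ∈ W ↔
      ∃ p ∈ D, ∃ q ∈ D, w.1 = -(h * (p.2 - q.2)) ∧ w.2 = h * (p.1 - q.1)) :
    volume {x : EuclideanSpace ℝ (Fin 3) | ∃ p ∈ D, ∃ q ∈ D,
        x 0 = -(h * (p.2 - q.2)) ∧ x 1 = h * (p.1 - q.1) ∧ |x 2| ≤ (volume D).toReal}
      = 2 * volume D * volume W := by
  have hset : {x : EuclideanSpace ℝ (Fin 3) | ∃ p ∈ D, ∃ q ∈ D,
        x 0 = -(h * (p.2 - q.2)) ∧ x 1 = h * (p.1 - q.1) ∧ |x 2| ≤ (volume D).toReal}
      = {x : EuclideanSpace ℝ (Fin 3) | (x 0, x 1) ∈ W ∧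
          x 2 ∈ Icc (-(volume D).toReal) (volume D).toReal} := by
    ext x
    simp only [mem_ofPred_eq, hW, mem_Icc, abs_le]
    constructor
    · rintro ⟨p, hp, q, hq, h0, h1, h2⟩
      exact ⟨⟨p, hp, q, hq, h0, h1⟩, h2⟩
    · rintro ⟨⟨p, hp, q, hq, h0, h1⟩, h2⟩
      exact ⟨p, hp, q, hq, h0, h1, h2⟩
  rw [hset, volume_slab, Real.volume_Icc]
  have h2 : (volume D).toReal - -(volume D).toReal = 2 * (volume D).toReal := by ring
  rw [h2, ENNReal.ofReal_mul (by norm_num), ENNReal.ofReal_toReal hD]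
  simp only [ENNReal.ofReal_ofNat]
  ring

/-- Volume of the set `Z` of Step 4, with the base written as a set of differences. -/
theorem volume_Z (D : Set (ℝ × ℝ)) (hD : volume D ≠ ⊤) (h : ℝ) :
    volume {x : EuclideanSpace ℝ (Fin 3) | ∃ p ∈ D, ∃ q ∈ D,
        x 0 = -(h * (p.2 - q.2)) ∧ x 1 = h * (p.1 - q.1) ∧ |x 2| ≤ (volume D).toReal}
      = 2 * volume D * volume {w : ℝ × ℝ | ∃ p ∈ D, ∃ q ∈ D,
          w.1 = -(h * (p.2 - q.2)) ∧ w.2 = h * (p.1 - q.1)} :=
  volume_Z_of D _ hD h (fun _ => Iff.rfl)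

end Vale.Agent.Lib.P237.H94
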