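import Mathlib
import Vale.Agent.Lib.P243.CapBM

/-!
helper94, P237 (prism case, proof report of helper98), Step 5a in the set-builder form used by
`H94.volume_Z`: for a compact planar set `D` the set of rotated, scaled differences
`W = {(-h (p.2 - q.2), h (p.1 - q.1)) : p, q ∈ D}` has area at least `4 h² · area D`
(midpoint Brunn-Minkowski; no convexity is needed).
-/

namespace Vale.Agent.Lib.P237.H94

open MeasureTheory Set

/-- The linear map `(x, y) ↦ x • v + y • w` of the plane. -/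
noncomputable def lin2 (v w : ℝ × ℝ) : (ℝ × ℝ) →ₗ[ℝ] (ℝ × ℝ) :=
  (LinearMap.fst ℝ ℝ ℝ).smulRight v + (LinearMap.snd ℝ ℝ ℝ).smulRight w

theorem lin2_apply (v w p : ℝ × ℝ) : lin2 v w p = p.1 • v + p.2 • w := rfl

theorem det_lin2 (v w : ℝ × ℝ) : LinearMap.det (lin2 v w) = v.1 * w.2 - v.2 * w.1 := by
  rw [← LinearMap.det_toMatrix (Module.Basis.finTwoProd ℝ), Matrix.det_fin_two]
  simp [LinearMap.toMatrix_apply, lin2_apply]
  ring

/-- Step 5a: the difference set of `D`, rotated by a quarter turn and scaled by `h`, has area at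
least `4 h²` times the area of `D`. -/
theorem volume_W_ge (D : Set (ℝ × ℝ)) (hD : IsCompact D) (h : ℝ) :
    4 * ENNReal.ofReal (h ^ 2) * volume D
      ≤ volume {w : ℝ × ℝ | ∃ p ∈ D, ∃ q ∈ D,
          w.1 = -(h * (p.2 - q.2)) ∧ w.2 = h * (p.1 - q.1)} := by
  set Z : Set (ℝ × ℝ) :=
    (fun pq : (ℝ × ℝ) × (ℝ × ℝ) => (1 / 2 : ℝ) • (pq.1 - pq.2)) '' (D ×ˢ D) with hZ
  have hZc : IsCompact Z := (hD.prod hD).image (by fun_prop)
  have hnegc : IsCompact ((fun p : ℝ × ℝ => -p) '' D) := hD.image continuous_neg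
  have hbm : volume D * volume ((fun p : ℝ × ℝ => -p) '' D) ≤ volume Z ^ 2 := by
    refine Vale.Agent.Lib.P243.Cap.bm_mid D _ Z hD.measurableSet hnegc.measurableSet
      hZc.measurableSet ?_
    rintro x hx _ ⟨q, hq, rfl⟩
    exact ⟨(x, q), ⟨hx, hq⟩, by simp [sub_eq_add_neg]⟩
  have hneg : volume ((fun p : ℝ × ℝ => -p) '' D) = volume D := by
    have him : (fun p : ℝ × ℝ => -p) '' D = lin2 (-1, 0) (0, -1) '' D := by
      refine image_congr' (fun p => ?_)
      rw [lin2_apply]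
      ext <;> simp
    rw [him, Measure.addHaar_image_linearMap, det_lin2]
    simp
  rw [hneg, ← sq] at hbm
  have hDZ : volume D ≤ volume Z := (ENNReal.pow_le_pow_left_iff two_ne_zero).1 hbm
  have hW : {w : ℝ × ℝ | ∃ p ∈ D, ∃ q ∈ D,
      w.1 = -(h * (p.2 - q.2)) ∧ w.2 = h * (p.1 - q.1)}
      = lin2 (0, 2 * h) (-(2 * h), 0) '' Z := by
    ext w
    constructor
    · rintro ⟨p, hp, q, hq, h0, h1⟩
      refine ⟨(1 / 2 : ℝ) • (p - q), ⟨(p, q), ⟨hp, hq⟩, rfl⟩, ?_⟩
      rw [lin2_apply]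
      ext
      · simp only [Prod.smul_fst, Prod.smul_snd, Prod.fst_sub, Prod.snd_sub, smul_eq_mul,
          Prod.fst_add, mul_zero, zero_add, h0]
        ring
      · simp only [Prod.smul_fst, Prod.smul_snd, Prod.fst_sub, Prod.snd_sub, smul_eq_mul,
          Prod.snd_add, mul_zero, add_zero, h1]
        ring
    · rintro ⟨_, ⟨⟨p, q⟩, ⟨hp, hq⟩, rfl⟩, rfl⟩
      refine ⟨p, hp, q, hq, ?_, ?_⟩
      · simp only [lin2_apply, Prod.smul_fst, Prod.smul_snd, Prod.fst_sub, Prod.snd_sub,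
          smul_eq_mul, Prod.fst_add, mul_zero, zero_add]
        ring
      · simp only [lin2_apply, Prod.smul_fst, Prod.smul_snd, Prod.fst_sub, Prod.snd_sub,
          smul_eq_mul, Prod.snd_add, mul_zero, add_zero]
        ring
  rw [hW, Measure.addHaar_image_linearMap, det_lin2]
  have hdet : |(0, 2 * h).1 * (-(2 * h), (0:ℝ)).2 - (0, 2 * h).2 * (-(2 * h), (0:ℝ)).1|
      = 4 * h ^ 2 := by
    simp only
    rw [abs_of_nonneg (by nlinarith [sq_nonneg h])]
    ring
  rw [hdet, ENNReal.ofReal_mul (by norm_num)]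
  simp only [ENNReal.ofReal_ofNat]
  gcongr

end Vale.Agent.Lib.P237.H94
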